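import Mathlib
import Vale.Agent.P335.Assembly
import Vale.Agent.P335.Mixing

/-!
P335: the switch chain mixes in polynomial time for every graphical degree vector.
-/

open Finset
open scoped Classical

namespace Vale.Agent.Results.P335.KTVRapidMixing

open Vale.Agent.P335

/-- There are `C, k` such that for every `n ≥ 4` and every degree vector `d` realised by some
simple graph, the switch chain is within total variation `1/4` of uniform from every start at
some time `t ≤ C n^k`, and its mixing time is at most `C n^k`. -/
theorem result : ∃ C k : ℕ, ∀ n : ℕ, 4 ≤ n → ∀ d : Fin n → ℕ,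
    (∃ G : SimpleGraph (Fin n), ∀ v, (G.neighborSet v).ncard = d v) →
      (∃ t ≤ C * n ^ k, ∀ G : Omega d, (1 / 2) * ∑ H : Omega d,
          |(switchChain d ^ t) G H - 1 / (Fintype.card (Omega d) : ℝ)| ≤ 1 / 4) ∧
        mixingTime d ≤ C * n ^ k := by
  obtain ⟨C₀, k₀, hP⟩ := poincare_poly
  obtain ⟨C, k, h⟩ := literal_bound (mixingFromPoincare C₀ k₀ hP)
  exact ⟨C, k, fun n hn d _ => h n hn d⟩

end Vale.Agent.Results.P335.KTVRapidMixing
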